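import Vale.Agent.P177.PI.T3J

/-!
# P177: colon ideals and `W(J) / (p - [t])`

`C` perfect, `J' ≤ J` perfect ideals with `t^K J ≤ J'`.  In `M = W(J)/W(J')`:
`[β] w ∈ (p - [t]) M` if and only if `w ∈ (p - [t]) M + W(J ∩ (J' : β))`.
-/

namespace Vale.Agent.P177.PI

open WittVector P202.Mix

universe u

variable (p : ℕ) [hp : Fact p.Prime] {C : Type u} [CommRing C] [CharP C p] [PerfectRing C p]

/-- the colon ideal `(J' : β)` inside `J`. -/
def cl (J J' : Ideal C) (β : C) : Ideal C where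
  carrier := {x | x ∈ J ∧ β * x ∈ J'}
  add_mem' := by
    rintro x y ⟨hx, hx'⟩ ⟨hy, hy'⟩
    exact ⟨J.add_mem hx hy, by rw [mul_add]; exact J'.add_mem hx' hy'⟩
  zero_mem' := ⟨J.zero_mem, by rw [mul_zero]; exact J'.zero_mem⟩
  smul_mem' := by
    rintro c x ⟨hx, hx'⟩
    refine ⟨J.mul_mem_left _ hx, ?_⟩
    rw [smul_eq_mul, mul_left_comm]
    exact J'.mul_mem_left _ hx'

omit [CharP C p] [PerfectRing C p] hp in
theorem mem_cl {J J' : Ideal C} {β x : C} : x ∈ cl J J' β ↔ x ∈ J ∧ β * x ∈ J' := Iff.rfl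

omit [CharP C p] [PerfectRing C p] hp in
theorem cl_le (J J' : Ideal C) (β : C) : cl J J' β ≤ J := fun _ h => h.1

omit [CharP C p] [PerfectRing C p] in
theorem isPerf_cl {J J' : Ideal C} (hJ : IsPerf p J) (hJ' : IsPerf p J') (β : C) :
    IsPerf p (cl J J' β) := by
  intro a ha b hb i hi c hc
  refine ⟨hJ a ha.1 b hb.1 i hi c hc, ?_⟩
  refine hJ' _ ha.2 _ hb.2 i hi _ ?_
  obtain ⟨r, hr⟩ := Nat.exists_eq_add_of_le hi
  have h1 : p - i = r := by omega
  rw [h1] at hc ⊢
  rw [mul_pow, hc]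
  calc β ^ p * (a ^ i * b ^ r) = β ^ (i + r) * (a ^ i * b ^ r) := by rw [← hr]
    _ = (β * a) ^ i * (β * b) ^ r := by ring

theorem le_cl {J J' : Ideal C} (hle : J' ≤ J) (β : C) : J' ≤ cl J J' β :=
  fun _ h => ⟨hle h, J'.mul_mem_left _ h⟩

/-- multiplication by a Teichmueller element in Witt coordinates. -/
theorem te_mul_mem_WI_c {J J' : Ideal C} (hJ : IsPerf p J) {β : C} (h : ∀ x ∈ J, β * x ∈ J')
    {w : WittVector p C} (hw : w ∈ WI p J) : teichmuller p β * w ∈ WI p J' := by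
  refine mem_WI_of_coeff p fun k => ?_
  obtain ⟨c, hc, hce⟩ := coeff_of_mem_WI p hJ hw k
  exact ⟨β * c, h c hc, by rw [teichmuller_mul_coeff, hce, mul_pow]⟩

/-- the colon ideal modulo `p ^ K`. -/
theorem exists_of_te_mul {J J' : Ideal C} (hJ : IsPerf p J) (hJ' : IsPerf p J') (β : C) (K : ℕ)
    {y v u : WittVector p C} (hy : y ∈ WI p J) (hv : v ∈ WI p J')
    (h : teichmuller p β * y = v + (p : WittVector p C) ^ K * u) :
    ∃ y₁ ∈ WI p (cl J J' β), ∃ u₁ ∈ WI p J, y = y₁ + (p : WittVector p C) ^ K * u₁ := by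
  have h1 : ∀ i, ∃ c ∈ cl J J' β, i < K → y.coeff i = c ^ p ^ i := by
    intro i
    by_cases hi : i < K
    · obtain ⟨c, hc, hce⟩ := coeff_of_mem_WI p hJ hy i
      obtain ⟨c', hc', hce'⟩ := coeff_of_mem_WI p hJ' hv i
      refine ⟨c, ⟨hc, ?_⟩, fun _ => hce⟩
      have h2 : (teichmuller p β * y).coeff i = v.coeff i := by
        refine coeff_eq_of_dvd_sub (n := K) ?_ hi
        rw [h]
        exact ⟨u, by ring⟩
      rw [teichmuller_mul_coeff, hce, hce', ← mul_pow] at h2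
      rw [pow_pow_inj p i h2]
      exact hc'
    · exact ⟨0, zero_mem _, fun hi' => absurd hi' hi⟩
  choose c hc hce using h1
  have h3 : WittVector.mk p (fun i => c i ^ p ^ i) ∈ WI p (cl J J' β) :=
    mem_WI_of_coeff p fun i => ⟨c i, hc i, by rw [coeff_mk]⟩
  obtain ⟨u₁, hu₁⟩ : (p : WittVector p C) ^ K ∣ y - WittVector.mk p (fun i => c i ^ p ^ i) := by
    rw [dvd_sub_iff]
    intro i hi
    rw [hce i hi, coeff_mk]
  refine ⟨_, h3, u₁, ?_, by rw [← hu₁]; ring⟩
  apply mem_of_p_pow_mul_mem p hJ K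
  rw [← hu₁]
  exact sub_mem hy (WI_mono p (cl_le J J' β) h3)

/-- `[β] w ∈ (p - [t]) W(J) + W(J')` implies `w ∈ (p - [t]) W(J) + W(J ∩ (J' : β))`. -/
theorem colon_exact {J J' : Ideal C} (hJ : IsPerf p J) (hJ' : IsPerf p J') (hle : J' ≤ J)
    {t : C} (K : ℕ) (ht : ∀ x ∈ J, t ^ K * x ∈ J') (β : C) {w z w' : WittVector p C}
    (hw : w ∈ WI p J) (hz : z ∈ WI p J) (hw' : w' ∈ WI p J')
    (h : teichmuller p β * w = (p - teichmuller p t) * z + w') :
    ∃ u ∈ WI p J, ∃ v ∈ WI p (cl J J' β), w = (p - teichmuller p t) * u + v := by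
  set S : WittVector p C := ∑ j ∈ Finset.range K, (p : WittVector p C) ^ j *
    teichmuller p t ^ (K - 1 - j) with hS
  have hgeom : S * ((p : WittVector p C) - teichmuller p t) = (p : WittVector p C) ^ K -
      teichmuller p t ^ K :=
    Commute.geom_sum₂_mul (Commute.all (p : WittVector p C) (teichmuller p t)) K
  have htK : ∀ x ∈ WI p J, teichmuller p t ^ K * x ∈ WI p J' := by
    intro x hx
    rw [← map_pow]
    exact te_mul_mem_WI_c p hJ ht hx
  -- `S w`
  have h1 : teichmuller p β * (S * w) = (S * w' - teichmuller p t ^ K * z) +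
      (p : WittVector p C) ^ K * z := by
    linear_combination S * h + z * hgeom
  obtain ⟨y₁, hy₁, u, hu, hy⟩ := exists_of_te_mul p hJ hJ' β K (Ideal.mul_mem_left _ _ hw)
    (sub_mem (Ideal.mul_mem_left _ _ hw') (htK z hz)) h1
  refine ⟨u, hu, w - (p - teichmuller p t) * u, ?_, by ring⟩
  have hv : w - (p - teichmuller p t) * u ∈ WI p J :=
    sub_mem hw (Ideal.mul_mem_left _ _ hu)
  have hcl := WI_mono p (le_cl hle β)
  have h2 : S * (w - (p - teichmuller p t) * u) ∈ WI p (cl J J' β) := by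
    have : S * (w - (p - teichmuller p t) * u) = y₁ + teichmuller p t ^ K * u := by
      linear_combination hy - u * hgeom
    rw [this]
    exact add_mem hy₁ (hcl (htK u hu))
  apply mem_of_p_pow_mul_mem p (isPerf_cl p hJ hJ' β) K
  have h3 : (p : WittVector p C) ^ K * (w - (p - teichmuller p t) * u) =
      (p - teichmuller p t) * (S * (w - (p - teichmuller p t) * u)) +
      teichmuller p t ^ K * (w - (p - teichmuller p t) * u) := by
    linear_combination -(w - (p - teichmuller p t) * u) * hgeom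
  rw [h3]
  exact add_mem (Ideal.mul_mem_left _ _ h2) (hcl (htK _ hv))

end Vale.Agent.P177.PI
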